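import Vale.Agent.ZAbs.Glue.Comparison
import Vale.Agent.ZAbs.Glue.Unital

/-!
Without characters the central sequence algebra has n orthogonal elements with one common square
which is full.
-/

noncomputable section

open Filter Topology
open scoped BoundedContinuousFunction

namespace Vale.Agent.P133

open Vale.Agent.P101.CombineN (IsOrderZero supp)
open Vale.Agent.P101.Stage4 (ComparisonN)
open Vale.Agent.P095.General

universe u

/-- The elements given by the relations. -/
lemma data_of_comparisonN {D : Type u} [CStarAlgebra D] {n : ℕ} {z : Fin n}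
    (hD : ComparisonN n z D) :
    ∃ (r : Fin n → D) (g : D) (y : Option (Fin n) → D),
      (∀ j k, star (r j) * r k = if j = k then g else 0) ∧
      ∑ l, star (y l) * g * y l = 1 := by
  obtain ⟨G, v, hG, hs, -, hv, hfix⟩ := hD
  have hH : IsSelfAdjoint (supp G) := Vale.Agent.P101.Stage4.supp_sa G hs
  set H := supp G with hHd
  let p : ℝ → ℝ := fun t => t ^ 4 + 1 - t
  have hp : ∀ t : ℝ, 0 < p t := fun t => by
    simp only [p]
    nlinarith [sq_nonneg (t ^ 2 - 1 / 2), sq_nonneg (t - 1 / 2)]
  let f : ℝ → ℝ := fun t => (Real.sqrt (p t))⁻¹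
  have hpc : Continuous p := by fun_prop
  have hfc : Continuous f :=
    (Real.continuous_sqrt.comp hpc).inv₀ fun t => (Real.sqrt_pos.2 (hp t)).ne'
  set S := cfc f H with hS
  have hSs : star S = S := (cfc_predicate f H : IsSelfAdjoint _).star_eq
  set g := G z z * G z z with hg
  refine ⟨fun j => G j z, g, fun l => Option.elim l (v * S) (fun i => G z i * S),
    fun j k => ?_, ?_⟩
  · rw [hs, hG.mul_eq, hg, hG.mul_eq, if_pos rfl]
  have hc : ∀ i j, Commute H (G i j) := fun i j => hG.commute_supp i j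
  have term : ∀ i, G i z * g * G z i = H ^ 3 * G i i := fun i => by
    calc G i z * g * G z i = (G i z * G z z) * (G z z * G z i) := by
          rw [hg]; simp only [mul_assoc]
      _ = (H * G i z) * (H * G z i) := by
          rw [hG.mul_eq, if_pos rfl, hG.mul_eq, if_pos rfl]
      _ = H * H * (G i z * G z i) := (hc i z).symm.mul_mul_mul_comm H (G z i)
      _ = H ^ 3 * G i i := by
          rw [hG.mul_eq, if_pos rfl, ← hHd, pow_succ, sq]; simp only [mul_assoc]
  have hsum : ∑ i, G i z * g * G z i = H ^ 4 := by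
    simp only [term, ← Finset.mul_sum]
    exact (pow_succ H 3).symm
  have hvg : star v * g * v = 1 - H := by
    have hfix' : star v * G z z = star v := by
      simpa [hs] using congrArg star hfix
    rw [hg, mul_assoc, mul_assoc (G z z), hfix, hfix, hv]
  have hb : cfc p H = H ^ 4 + 1 - H := by
    simp only [p]
    rw [cfc_sub (fun t : ℝ => t ^ 4 + 1) (fun t => t) H, cfc_add_const (1 : ℝ)
      (fun t : ℝ => t ^ 4) H, cfc_pow_id H 4, cfc_id' ℝ H, map_one]
  have key : S * (H ^ 4 + 1 - H) * S = 1 := by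
    rw [← hb, hS, ← cfc_mul f p H hfc.continuousOn hpc.continuousOn,
      ← cfc_mul (fun t => f t * p t) f H (hfc.mul hpc).continuousOn hfc.continuousOn,
      ← cfc_one ℝ H]
    refine cfc_congr fun t _ => ?_
    simp only [f, Pi.one_apply]
    have h2 := Real.mul_self_sqrt (hp t).le
    have h3 : Real.sqrt (p t) ≠ 0 := (Real.sqrt_pos.2 (hp t)).ne'
    field_simp
    linarith
  rw [Fintype.sum_option]
  calc star (v * S) * g * (v * S) + ∑ i, star (G z i * S) * g * (G z i * S)
      = S * (star v * g * v) * S + ∑ i, S * (G i z * g * G z i) * S := by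
        simp only [star_mul, hSs, hs, mul_assoc]
    _ = S * (H ^ 4 + 1 - H) * S := by
        rw [← Finset.sum_mul, ← Finset.mul_sum, hsum, hvg, ← add_mul, ← mul_add]
        congr 2
        abel
    _ = 1 := key

variable {A : Type u} [NonUnitalCStarAlgebra A]

/-- Orthogonal elements with a common full square, on representatives. -/
structure Data (ω : Ultrafilter ℕ) (A : Type u) [NonUnitalCStarAlgebra A] (n : ℕ) where
  κ : Type
  fin : Fintype κ
  dec : DecidableEq κ
  R : Fin n → (ℕ →ᵇ A)
  Y : κ → (ℕ →ᵇ A)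
  G : ℕ →ᵇ A
  centralR : ∀ k, IsCentralA ω (R k)
  centralY : ∀ l, IsCentralA ω (Y l)
  centralG : IsCentralA ω G
  orth : ∀ j k, IsAnnA ω (star (R j) * R k - if j = k then G else 0)
  full : ∀ b : A, Tendsto (fun m => ‖(∑ l, star (Y l) * G * Y l : ℕ →ᵇ A) m * b - b‖)
    (ω : Filter ℕ) (𝓝 0)

lemma central_zero (ω : Ultrafilter ℕ) : IsCentralA ω (0 : ℕ →ᵇ A) := fun b => by simp

lemma cls_zero (ω : Ultrafilter ℕ) : cls ω (0 : ℕ →ᵇ A) (central_zero ω) = 0 :=
  (cls_eq_zero_iff ω _).2 fun b => by simp

lemma cls_sum (ω : Ultrafilter ℕ) {ι : Type*} (s : Finset ι) (a : ι → (ℕ →ᵇ A))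
    (ha : ∀ i, IsCentralA ω (a i)) :
    ∃ hs : IsCentralA ω (∑ i ∈ s, a i), cls ω _ hs = ∑ i ∈ s, cls ω (a i) (ha i) := by
  classical
  induction s using Finset.induction_on with
  | empty => simpa using ⟨central_zero ω, cls_zero ω⟩
  | insert i s hi ih =>
    obtain ⟨hs, e⟩ := ih
    simp only [Finset.sum_insert hi]
    exact ⟨central_add ω (ha i) hs, by rw [cls_add ω (ha i) hs, e]⟩

/-- Representatives in the algebra, for any number of elements. -/
theorem exists_data [TopologicalSpace.SeparableSpace A] (ω : Ultrafilter ℕ)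
    (hω : (ω : Filter ℕ) ≤ cofinite) (he : IsEmpty (CentralCharA ω A)) (m : ℕ) :
    Nonempty (Data ω A m) := by
  obtain ⟨N, z, hmN, hN⟩ := Vale.Agent.ZAbs.Glue.comparisonN_central ω
    Vale.Agent.ZAbs.Glue.folner_punit (fun _ : PUnit.{1} => StarAlgEquiv.refl ℂ A)
    (fun _ _ _ => rfl) hω he m
  obtain ⟨r, g, y, hr, hy⟩ := @data_of_comparisonN _
    (StarSubalgebra.cstarAlgebra _ (h_closed :=
      Vale.Agent.ZAbs.Glue.instClosedFixedA ω (fun _ : PUnit.{1} => StarAlgEquiv.refl ℂ A)
        (fun _ _ _ => rfl))) N z hN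
  obtain ⟨e, hu⟩ := Vale.Agent.ZAbs.Glue.exists_unit_omega ω hω (A := A)
  choose R hR eR using fun k : Fin m => exists_repA ω hu ((r (Fin.castLE hmN k)).1)
  choose Y hY eY using fun l => exists_repA ω hu ((y l).1)
  obtain ⟨G, hG, eG⟩ := exists_repA ω hu g.1
  refine ⟨⟨Option (Fin N), inferInstance, inferInstance, R, Y, G, hR, hY, hG, fun j k => ?_, ?_⟩⟩
  · have e1 : cls ω (star (R j) * R k) (central_mul ω (central_star ω (hR j)) (hR k))
        = if j = k then g.1 else 0 := by
      rw [cls_mul ω (central_star ω (hR j)) (hR k), cls_star ω (hR j), eR, eR]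
      have := congrArg Subtype.val (hr (Fin.castLE hmN j) (Fin.castLE hmN k))
      by_cases hjk : j = k
      · subst hjk; simpa using this
      · simpa [hjk, (Fin.castLE_injective hmN).ne hjk] using this
    by_cases hjk : j = k
    · rw [if_pos hjk]; rw [if_pos hjk, ← eG] at e1
      exact (cls_eq_iff ω _ hG).1 e1
    · rw [if_neg hjk, sub_zero]; rw [if_neg hjk] at e1
      exact (cls_eq_zero_iff ω _).1 e1
  · obtain ⟨hs, e1⟩ := cls_sum ω Finset.univ (fun l => star (Y l) * G * Y l)
      fun l => central_mul ω (central_mul ω (central_star ω (hY l)) hG) (hY l)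
    refine (cls_eq_one_iff ω hs).1 ?_
    rw [e1]
    have := congrArg Subtype.val hy
    simpa [cls_mul ω (central_mul ω (central_star ω (hY _)) hG) (hY _),
      cls_mul ω (central_star ω (hY _)) hG, cls_star ω (hY _), eY, eG,
      AddSubmonoidClass.coe_finsetSum] using this

end Vale.Agent.P133
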