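import Mathlib

/-!
The three notions of pure infiniteness for C*-algebras which need not be unital.
-/

noncomputable section

namespace Vale.Agent.P133

universe u

variable {A : Type u} [NonUnitalCStarAlgebra A]

/-- A positive element. -/
def IsPos (h : A) : Prop := ∃ c : A, star c * c = h

/-- The n-fold diagonal amplification H = diag(h,...,h) is properly infinite: H + H is Cuntz below
H, so there are n by 2n matrices X with X* H X arbitrarily close to diag(H,H) in every entry. -/
def ProperlyInfinite (n : ℕ) (h : A) : Prop :=
  ∀ ε : ℝ, 0 < ε → ∃ X : Fin n → Fin 2 × Fin n → A, ∀ a b : Fin 2 × Fin n,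
    ‖∑ k, star (X k a) * h * X k b - (if a = b then h else 0)‖ < ε

variable (A)

/-- Purely infinite: every positive element is properly infinite. -/
def IsPurelyInfinite : Prop := ∀ h : A, IsPos h → ProperlyInfinite 1 h

/-- Weakly purely infinite: for some n, independent of h, the n-fold amplification of every
positive element h is properly infinite. -/
def IsWeaklyPurelyInfinite : Prop :=
  ∃ n : ℕ, 1 ≤ n ∧ ∀ h : A, IsPos h → ProperlyInfinite n h

/-- Strongly purely infinite, in the form for arbitrary C*-algebras. -/
def IsStronglyPurelyInfinite : Prop :=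
  ∀ x y : A, IsPos x → IsPos y → ∀ ε : ℝ, 0 < ε → ∃ s t : A,
    ‖star s * (x * x) * s - x * x‖ < ε ∧ ‖star t * (y * y) * t - y * y‖ < ε ∧
      ‖star s * (x * y) * t‖ < ε

end Vale.Agent.P133
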