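import Vale.Agent.P133.Defs

/-!
Cuntz comparison between diagonal amplifications of one element: composition and doubling.
-/

noncomputable section

namespace Vale.Agent.P133

universe u

variable {A : Type u} [NonUnitalCStarAlgebra A]

/-- As many copies of h as ι has elements are Cuntz below as many as κ has. -/
def Le (h : A) (ι κ : Type) [Fintype κ] [DecidableEq ι] : Prop :=
  ∀ ε : ℝ, 0 < ε → ∃ X : κ → ι → A, ∀ a b : ι,
    ‖∑ k, star (X k a) * h * X k b - (if a = b then h else 0)‖ < ε

variable {h : A} {ι ι' κ μ σ : Type} [DecidableEq ι] [DecidableEq ι']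

lemma Le.mono [Fintype κ] (hL : Le h ι κ) (f : ι' ↪ ι) : Le h ι' κ := by
  intro ε hε
  obtain ⟨X, hX⟩ := hL ε hε
  refine ⟨fun k a => X k (f a), fun a b => ?_⟩
  have := hX (f a) (f b)
  simpa only [f.injective.eq_iff] using this

lemma Le.of_card [Fintype κ] [Fintype ι] [Fintype ι'] (hL : Le h ι κ)
    (hc : Fintype.card ι' ≤ Fintype.card ι) : Le h ι' κ :=
  hL.mono (Function.Embedding.nonempty_of_card_le hc).some

lemma Le.prod [Fintype κ] [Fintype σ] [DecidableEq σ] (hL : Le h ι κ) :
    Le h (ι × σ) (κ × σ) := by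
  intro ε hε
  obtain ⟨X, hX⟩ := hL ε hε
  refine ⟨fun k a => if k.2 = a.2 then X k.1 a.1 else 0, ?_⟩
  rintro ⟨a, s⟩ ⟨b, t⟩
  rw [Fintype.sum_prod_type]
  by_cases hst : s = t
  · subst hst
    simpa [apply_ite star, ite_mul, mul_ite] using hX a b
  · simpa [apply_ite star, ite_mul, mul_ite, hst, Ne.symm hst] using hε

lemma Le.trans [Fintype ι] [Fintype κ] [DecidableEq κ] [Fintype μ] (hX : Le h ι κ)
    (hY : Le h κ μ) : Le h ι μ := by
  intro ε hε
  obtain ⟨X, hX⟩ := hX (ε / 2) (by positivity)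
  set C : ℝ := ∑ a, ∑ b, ∑ k, ∑ l, ‖X k a‖ * ‖X l b‖
  have hC : 0 ≤ C := by positivity
  obtain ⟨Y, hY⟩ := hY (ε / 2 / (C + 1)) (by positivity)
  refine ⟨fun p a => ∑ k, Y p k * X k a, fun a b => ?_⟩
  set S : κ → κ → A := fun k l => ∑ p, star (Y p k) * h * Y p l
  have e : ∑ p, star (∑ k, Y p k * X k a) * h * (∑ k, Y p k * X k b)
      - (if a = b then h else 0)
      = ∑ k, ∑ l, star (X k a) * (S k l - if k = l then h else 0) * X l b
        + (∑ k, star (X k a) * h * X k b - if a = b then h else 0) := by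
    have e1 : ∑ p, star (∑ k, Y p k * X k a) * h * (∑ k, Y p k * X k b)
        = ∑ k, ∑ l, star (X k a) * S k l * X l b := by
      simp only [S, star_sum, star_mul, Finset.sum_mul, Finset.mul_sum, mul_assoc]
      rw [Finset.sum_comm]
      exact (Finset.sum_congr rfl fun l _ => Finset.sum_comm).trans Finset.sum_comm
    rw [e1]
    simp [mul_sub, sub_mul, Finset.sum_sub_distrib, mul_ite, ite_mul]
  rw [e]
  refine lt_of_le_of_lt (norm_add_le _ _) ?_
  refine lt_of_lt_of_eq (add_lt_add_of_le_of_lt ?_ (hX a b)) (add_halves ε)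
  calc ‖∑ k, ∑ l, star (X k a) * (S k l - if k = l then h else 0) * X l b‖
      ≤ ∑ k, ∑ l, ‖X k a‖ * ‖X l b‖ * (ε / 2 / (C + 1)) := by
        refine (norm_sum_le _ _).trans (Finset.sum_le_sum fun k _ => ?_)
        refine (norm_sum_le _ _).trans (Finset.sum_le_sum fun l _ => ?_)
        refine (norm_mul₃_le (a := star (X k a))).trans ?_
        rw [norm_star, mul_right_comm]
        gcongr
        exact (hY k l).le
    _ = (∑ k, ∑ l, ‖X k a‖ * ‖X l b‖) * (ε / 2 / (C + 1)) := by
        simp only [Finset.sum_mul]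
    _ ≤ C * (ε / 2 / (C + 1)) := by
        gcongr
        calc ∑ k, ∑ l, ‖X k a‖ * ‖X l b‖
            ≤ ∑ b', ∑ k, ∑ l, ‖X k a‖ * ‖X l b'‖ :=
              Finset.single_le_sum (f := fun b' => ∑ k, ∑ l, ‖X k a‖ * ‖X l b'‖)
                (fun _ _ => by positivity) (Finset.mem_univ b)
          _ ≤ C := Finset.single_le_sum (f := fun a' => ∑ b', ∑ k, ∑ l, ‖X k a'‖ * ‖X l b'‖)
                (fun _ _ => by positivity) (Finset.mem_univ a)
    _ ≤ ε / 2 := by
        rw [mul_div_assoc', div_le_iff₀ (by positivity)]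
        nlinarith

/-- If the n-fold amplification is properly infinite then any number of copies is below n. -/
lemma Le.of_properlyInfinite {n : ℕ} (hn : 1 ≤ n) (hh : ProperlyInfinite n h) (ι : Type)
    [Fintype ι] [DecidableEq ι] : Le h ι (Fin n) := by
  have base : Le h (Fin 2 × Fin n) (Fin n) := hh
  have step : ∀ k : ℕ, Le h (Fin (2 ^ (k + 1) * n)) (Fin n) := by
    intro k
    induction k with
    | zero => exact base.of_card (by simp)
    | succ k ih =>
      have h1 : Le h (Fin n × Fin (2 ^ (k + 1))) (Fin n) := ih.of_card (by simp [mul_comm])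
      have h2 := (base.prod (σ := Fin (2 ^ (k + 1)))).trans h1
      exact h2.of_card (by simp only [Fintype.card_fin, Fintype.card_prod]; exact le_of_eq (by ring))
  refine (step (Fintype.card ι)).of_card ?_
  rw [Fintype.card_fin]
  calc Fintype.card ι ≤ 2 ^ (Fintype.card ι + 1) :=
        ((Fintype.card ι).lt_two_pow_self.le).trans (Nat.pow_le_pow_right two_pos (Nat.le_succ _))
    _ ≤ 2 ^ (Fintype.card ι + 1) * n := Nat.le_mul_of_pos_right _ hn

end Vale.Agent.P133
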