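import Vale.Agent.P133.Le
import Vale.Agent.P133.Data

/-!
The three notions of pure infiniteness agree when the central sequence algebra has no characters.
-/

noncomputable section

open Filter Topology
open scoped BoundedContinuousFunction

namespace Vale.Agent.P133

open Vale.Agent.P095.General

universe u

variable {A : Type u} [NonUnitalCStarAlgebra A] (ω : Ultrafilter ℕ)

/-- Bounded sequences which agree along ω. -/
def nullCon (A : Type u) [NonUnitalCStarAlgebra A] : RingCon (ℕ →ᵇ A) where
  r a b := Tendsto (fun m => ‖a m - b m‖) (ω : Filter ℕ) (𝓝 0)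
  iseqv :=
    ⟨fun a => by simp, fun h => h.congr fun m => norm_sub_rev _ _, fun h h' =>
      squeeze_zero (fun m => norm_nonneg _) (fun m => norm_sub_le_norm_sub_add_norm_sub _ _ _)
        (by simpa using h.add h')⟩
  add' {a b c d} h h' := by
    refine squeeze_zero (fun m => norm_nonneg _) (fun m => ?_) (by simpa using h.add h')
    simp only [BoundedContinuousFunction.add_apply]
    rw [add_sub_add_comm]
    exact norm_add_le _ _
  mul' {a b c d} h h' := by
    refine squeeze_zero (g := fun m => ‖a m - b m‖ * ‖c‖ + ‖b‖ * ‖c m - d m‖)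
      (fun m => norm_nonneg _) (fun m => ?_) ?_
    · calc ‖(a * c) m - (b * d) m‖ = ‖(a m - b m) * c m + b m * (c m - d m)‖ := by
            simp only [BoundedContinuousFunction.mul_apply, sub_mul, mul_sub]; congr 1; abel
        _ ≤ _ := (norm_add_le _ _).trans (add_le_add
            ((norm_mul_le _ _).trans (by gcongr; exact c.norm_coe_le_norm m))
            ((norm_mul_le _ _).trans (by gcongr; exact b.norm_coe_le_norm m)))
    · simpa using (h.mul_const ‖c‖).add (h'.const_mul ‖b‖)

/-- The quotient map. -/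
def π : (ℕ →ᵇ A) →ₙ+* (nullCon ω A).Quotient where
  toFun a := (a : (nullCon ω A).Quotient)
  map_mul' _ _ := rfl
  map_zero' := rfl
  map_add' _ _ := rfl

lemma π_eq_iff {a b : ℕ →ᵇ A} :
    π ω a = π ω b ↔ Tendsto (fun m => ‖a m - b m‖) (ω : Filter ℕ) (𝓝 0) :=
  (nullCon ω A).eq

/-- A constant sequence. -/
def con (b : A) : ℕ →ᵇ A := BoundedContinuousFunction.const ℕ b

variable {ω}

lemma π_comm {a : ℕ →ᵇ A} (ha : IsCentralA ω a) (b : A) :
    π ω a * π ω (con b) = π ω (con b) * π ω a := by
  rw [← map_mul, ← map_mul, π_eq_iff]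
  exact ha b

lemma π_comm_star {a : ℕ →ᵇ A} (ha : IsCentralA ω a) (b : A) :
    π ω (star a) * π ω (con b) = π ω (con b) * π ω (star a) := π_comm (central_star ω ha) b

namespace Data

variable {n p : ℕ} (d : Data ω A n)

attribute [local instance] Data.fin Data.dec

/-- Fewer elements. -/
def restrict (f : Fin p ↪ Fin n) : Data ω A p :=
  ⟨d.κ, d.fin, d.dec, fun k => d.R (f k), d.Y, d.G, fun _ => d.centralR _, d.centralY, d.centralG,
    fun j k => by simpa only [f.injective.eq_iff] using d.orth (f j) (f k), d.full⟩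

lemma orth_mul (j k : Fin n) (b : A) :
    π ω (star (d.R j)) * π ω (d.R k) * π ω (con b) =
      if j = k then π ω d.G * π ω (con b) else 0 := by
  have h : π ω (star (d.R j) * d.R k * con b) =
      π ω ((if j = k then d.G else 0) * con b) := by
    rw [π_eq_iff]
    refine squeeze_zero (fun m => norm_nonneg _) (fun m => ?_) (d.orth j k b)
    refine le_add_of_le_of_nonneg (le_of_eq ?_) (norm_nonneg _)
    by_cases hjk : j = k <;> simp [con, sub_mul, hjk]
  rw [map_mul, map_mul] at h
  rw [h]
  split_ifs <;> simp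

lemma full_mul (b : A) :
    (∑ l, π ω (star (d.Y l)) * π ω d.G * π ω (d.Y l)) * π ω (con b) = π ω (con b) := by
  have h : π ω ((∑ l, star (d.Y l) * d.G * d.Y l) * con b) = π ω (con b) := by
    rw [π_eq_iff]
    exact d.full b
  simpa [map_mul, map_sum] using h

/-- The element built from fixed coefficients. -/
def mix (X : Fin n → d.κ → A) : ℕ →ᵇ A := ∑ k, ∑ l, d.R k * con (X k l) * d.Y l

lemma expand {n' : ℕ} (f : Fin p ↪ Fin n) (f' : Fin n' ↪ Fin n) (X : Fin p → d.κ → A)
    (X' : Fin n' → d.κ → A) (h : A) :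
    π ω (star ((d.restrict f).mix X) * con h * (d.restrict f').mix X') =
      ∑ l, ∑ l', π ω (star (d.Y l)) *
        (∑ k, ∑ j, if f k = f' j then
          π ω d.G * π ω (con (star (X k l) * h * X' j l')) else 0) * π ω (d.Y l') := by
  have key : ∀ k l j l', π ω (star (d.Y l)) * (π ω (con (star (X k l))) *
      (π ω (star (d.R (f k))) * (π ω (con h) * (π ω (d.R (f' j)) * (π ω (con (X' j l')) *
        π ω (d.Y l')))))) = π ω (star (d.Y l)) * ((if f k = f' j then
          π ω d.G * π ω (con (star (X k l) * h * X' j l')) else 0) * π ω (d.Y l')) := by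
    intro k l j l'
    rw [← d.orth_mul]
    congr 1
    simp only [← mul_assoc]
    congr 1
    have hc1 := π_comm_star (d.centralR (f k)) (star (X k l))
    have hc2 := π_comm (d.centralR (f' j)) h
    have hc3 := π_comm (d.centralR (f' j)) (star (X k l))
    have e : π ω (con (star (X k l) * h * X' j l')) =
        π ω (con (star (X k l))) * π ω (con h) * π ω (con (X' j l')) := by
      rw [← map_mul, ← map_mul]; rfl
    rw [e]
    simp only [mul_assoc]
    rw [← mul_assoc (π ω (con (star (X k l)))) (π ω (star (d.R (f k)))), ← hc1,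
      ← mul_assoc (π ω (con h)) (π ω (d.R (f' j))), ← hc2]
    simp only [mul_assoc]
    rw [← mul_assoc (π ω (con (star (X k l)))) (π ω (d.R (f' j))), ← hc3]
    simp only [mul_assoc]
  have hst : ∀ b : A, star (con b) = con (star b) := fun b => rfl
  simp only [mix, restrict, star_sum, star_mul, hst, Finset.sum_mul, Finset.mul_sum,
    map_sum, map_mul, mul_assoc, key]
  exact ((Finset.sum_congr rfl fun j _ => ((Finset.sum_congr rfl fun l' _ => Finset.sum_comm).trans
    Finset.sum_comm)).trans Finset.sum_comm).trans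
    (Finset.sum_congr rfl fun l _ => Finset.sum_comm.trans
      (Finset.sum_congr rfl fun l' _ => Finset.sum_comm))

/-- The compressions by the mixed elements approximate the orthogonal copies. -/
lemma approx {α : Type} [Fintype α] [DecidableEq α] {h : A} (hL : Le h (α × d.κ) (Fin n))
    {ε : ℝ} (hε : 0 < ε) :
    ∃ X : α → Fin n → d.κ → A, ∀ᶠ m in (ω : Filter ℕ), ∀ a b,
      ‖star (d.mix (X a) m) * h * d.mix (X b) m - (if a = b then h else 0)‖ < ε := by
  set C : ℝ := ∑ l, ∑ l', ‖d.Y l‖ * ‖d.G‖ * ‖d.Y l'‖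
  have hC : 0 ≤ C := by positivity
  obtain ⟨X, hX⟩ := hL (ε / 2 / (C + 1)) (by positivity)
  refine ⟨fun a k l => X k (a, l), eventually_all.2 fun a => eventually_all.2 fun b => ?_⟩
  let E : d.κ → d.κ → A := fun l l' =>
    ∑ k, star (X k (a, l)) * h * X k (b, l') - if (a, l) = (b, l') then h else 0
  let err : ℕ →ᵇ A := ∑ l, ∑ l', star (d.Y l) * d.G * con (E l l') * d.Y l'
  set S := fun c : α => d.mix fun k l => X k (c, l)
  have hs : ∀ (s : Finset (Fin n)) (t : Fin n → A), π ω (con (∑ k ∈ s, t k)) =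
      ∑ k ∈ s, π ω (con (t k)) := fun s t => by
    rw [← map_sum]
    congr 1
    exact BoundedContinuousFunction.ext fun m => by simp [con]
  have hmain : ∑ l, ∑ l', π ω (star (d.Y l)) * π ω d.G *
      π ω (con (if (a, l) = (b, l') then h else 0)) * π ω (d.Y l') =
      π ω (con (if a = b then h else 0)) := by
    have hz : π ω (con (0 : A)) = 0 := map_zero (π ω)
    by_cases hab : a = b
    · subst hab
      simp only [Prod.mk.injEq, true_and, if_true]
      conv_rhs => rw [← d.full_mul, Finset.sum_mul]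
      refine Finset.sum_congr rfl fun l _ => ?_
      rw [Finset.sum_eq_single l (fun l' _ hl => by simp [Ne.symm hl, hz]) (by simp), if_pos rfl]
      rw [mul_assoc _ (π ω (con h)), ← π_comm (d.centralY l), ← mul_assoc]
    · simp [hab, hz]
  have he : π ω (star (S a) * con h * S b) = π ω (con (if a = b then h else 0) + err) := by
    have hr : (d.restrict (Function.Embedding.refl _)).mix = d.mix := rfl
    have := d.expand (Function.Embedding.refl _) (Function.Embedding.refl _)
      (fun k l => X k (a, l)) (fun k l => X k (b, l)) h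
    rw [hr] at this
    rw [this, map_add, ← hmain, show err = ∑ l, ∑ l', star (d.Y l) * d.G * con (E l l') * d.Y l' from rfl]
    simp only [map_sum, map_mul]
    rw [← Finset.sum_add_distrib]
    refine Finset.sum_congr rfl fun l _ => ?_
    rw [← Finset.sum_add_distrib]
    refine Finset.sum_congr rfl fun l' _ => ?_
    simp only [Function.Embedding.refl_apply, Finset.sum_ite_eq, Finset.mem_univ, if_true]
    rw [← Finset.mul_sum, ← hs, ← add_mul, ← mul_assoc, ← mul_add, ← map_add]
    congr 3
    exact BoundedContinuousFunction.ext fun m => by simp [con, E]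
  filter_upwards [((π_eq_iff ω).1 he).eventually_lt_const (show (0 : ℝ) < ε / 2 by positivity)]
    with m hm
  have herr : ‖err m‖ ≤ ε / 2 := by
    have : err m = ∑ l, ∑ l', star (d.Y l m) * d.G m * E l l' * d.Y l' m := by
      simp [err, con]
    rw [this]
    calc ‖∑ l, ∑ l', star (d.Y l m) * d.G m * E l l' * d.Y l' m‖
        ≤ ∑ l, ∑ l', ‖d.Y l‖ * ‖d.G‖ * (ε / 2 / (C + 1)) * ‖d.Y l'‖ := by
          refine (norm_sum_le _ _).trans (Finset.sum_le_sum fun l _ => ?_)
          refine (norm_sum_le _ _).trans (Finset.sum_le_sum fun l' _ => ?_)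
          refine (norm_mul_le _ _).trans (mul_le_mul (norm_mul₃_le.trans ?_)
            ((d.Y l').norm_coe_le_norm m) (norm_nonneg _) (by positivity))
          rw [norm_star]
          gcongr
          · exact (d.Y l).norm_coe_le_norm m
          · exact d.G.norm_coe_le_norm m
          · exact (hX (a, l) (b, l')).le
      _ = C * (ε / 2 / (C + 1)) := by
          simp only [C, Finset.sum_mul]
          exact Finset.sum_congr rfl fun l _ => Finset.sum_congr rfl fun l' _ => by ring
      _ ≤ ε / 2 := by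
          rw [mul_div_assoc', div_le_iff₀ (by positivity)]
          nlinarith
  have hm' : ‖(star (S a m) * h * S b m - (if a = b then h else 0)) - err m‖ < ε / 2 := by
    rw [sub_sub]
    simpa [con] using hm
  calc ‖star (S a m) * h * S b m - (if a = b then h else 0)‖
      ≤ ‖(star (S a m) * h * S b m - (if a = b then h else 0)) - err m‖ + ‖err m‖ :=
        norm_le_norm_sub_add _ _
    _ < ε := by linarith

/-- Mixed elements over orthogonal elements annihilate everything between them. -/
lemma cross {q : ℕ} (f : Fin p ↪ Fin n) (f' : Fin q ↪ Fin n) (hff : ∀ k j, f k ≠ f' j)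
    (X : Fin p → d.κ → A) (X' : Fin q → d.κ → A) (h : A) :
    Tendsto (fun m => ‖star ((d.restrict f).mix X m) * h * (d.restrict f').mix X' m‖)
      (ω : Filter ℕ) (𝓝 0) := by
  have h0 : π ω (star ((d.restrict f).mix X) * con h * (d.restrict f').mix X') = π ω 0 := by
    rw [d.expand, map_zero]
    simp [hff]
  simpa [con] using (π_eq_iff ω).1 h0

end Data

lemma IsPos.star_eq {x : A} (hx : IsPos x) : star x = x := by
  obtain ⟨c, rfl⟩ := hx
  simp

lemma IsPos.mul_self {x : A} (hx : IsPos x) : IsPos (x * x) := ⟨x, by rw [hx.star_eq]⟩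

lemma IsPos.exists_sqrt {h : A} (hh : IsPos h) : ∃ x, IsPos x ∧ x * x = h := by
  let := CStarAlgebra.spectralOrder A
  have := CStarAlgebra.spectralOrderedRing A
  obtain ⟨c, rfl⟩ := hh
  have h1 : 0 ≤ star c * c := star_mul_self_nonneg c
  refine ⟨CFC.sqrt (star c * c), ⟨CFC.sqrt (CFC.sqrt (star c * c)), ?_⟩,
    CFC.sqrt_mul_sqrt_self _ h1⟩
  rw [(IsSelfAdjoint.of_nonneg (CFC.sqrt_nonneg _)).star_eq,
    CFC.sqrt_mul_sqrt_self _ (CFC.sqrt_nonneg _)]

theorem weakly_of_purely (h : IsPurelyInfinite A) : IsWeaklyPurelyInfinite A := ⟨1, le_rfl, h⟩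

theorem purely_of_strongly (hA : IsStronglyPurelyInfinite A) : IsPurelyInfinite A := by
  intro h hh ε hε
  obtain ⟨x, hx, rfl⟩ := hh.exists_sqrt
  obtain ⟨s, t, hs, ht, hst⟩ := hA x x hx hx ε hε
  refine ⟨fun _ a => ![s, t] a.1, ?_⟩
  rintro ⟨a, a'⟩ ⟨b, b'⟩
  obtain rfl : a' = b' := Subsingleton.elim _ _
  have hts : ‖star t * (x * x) * s‖ < ε := by
    rw [← norm_star]
    simpa [hx.star_eq, mul_assoc] using hst
  fin_cases a <;> fin_cases b <;> simp [hs, ht, hst, hts]

section Main

variable [TopologicalSpace.SeparableSpace A] (hω : (ω : Filter ℕ) ≤ cofinite)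
  (he : IsEmpty (CentralCharA ω A))

include hω he

theorem purely_of_weakly (hA : IsWeaklyPurelyInfinite A) : IsPurelyInfinite A := by
  obtain ⟨n, hn, hA⟩ := hA
  obtain ⟨d⟩ := exists_data ω hω he n
  let := d.fin
  let := d.dec
  intro h hh ε hε
  obtain ⟨X, hX⟩ := d.approx (Le.of_properlyInfinite hn (hA h hh) (Fin 2 × d.κ)) hε
  obtain ⟨m, hm⟩ := hX.exists
  refine ⟨fun _ a => d.mix (X a.1) m, ?_⟩
  rintro ⟨a, a'⟩ ⟨b, b'⟩
  obtain rfl : a' = b' := Subsingleton.elim _ _
  simpa using hm a b

theorem strongly_of_purely (hA : IsPurelyInfinite A) : IsStronglyPurelyInfinite A := by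
  intro x y hx hy ε hε
  obtain ⟨d⟩ := exists_data ω hω he 2
  let := d.fin
  let := d.dec
  let f : Fin 2 → Fin 1 ↪ Fin 2 := fun i => ⟨fun _ => i, fun a b _ => Subsingleton.elim a b⟩
  obtain ⟨X, hX⟩ := (d.restrict (f 0)).approx
    (Le.of_properlyInfinite le_rfl (hA _ hx.mul_self) (Fin 1 × d.κ)) hε
  obtain ⟨Y, hY⟩ := (d.restrict (f 1)).approx
    (Le.of_properlyInfinite le_rfl (hA _ hy.mul_self) (Fin 1 × d.κ)) hε
  have h0 := (d.cross (f 0) (f 1) (fun _ _ => (zero_ne_one : (0 : Fin 2) ≠ 1)) (X 0) (Y 0) (x * y)).eventually_lt_const hε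
  obtain ⟨m, hmX, hmY, hm0⟩ := (hX.and (hY.and h0)).exists
  exact ⟨_, _, by simpa using hmX 0 0, by simpa using hmY 0 0, hm0⟩

end Main

end Vale.Agent.P133
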